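import Vale.Agent.P254.Profile

/-!
# P254: parking cells inside the body
-/

namespace Vale.Agent.P254

open MeasureTheory Finset

variable {n : ℕ}

/-- Parking functions: for every `j`, at least `j` cars prefer a place below `j`. -/
def parking (n : ℕ) : Finset (Fin n → Fin (n + 1)) :=
  univ.filter fun g => ∀ j : Fin (n + 1), (j : ℕ) ≤ (univ.filter fun i => (g i : ℕ) < (j : ℕ)).card

theorem exists_rotation (f : Fin n → Fin (n + 1)) :
    ∃ s : Fin (n + 1), (fun i => f i - s) ∈ parking n := by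
  classical
  set A : ℕ → ℤ := fun t => ((univ.filter fun i => (f i : ℕ) < t).card : ℤ) with hA
  obtain ⟨m, hm, hmin⟩ := exists_min_image (Finset.Icc 1 (n + 1)) (fun t => A t - t) ⟨1, by simp⟩
  set T := (Finset.Icc 1 (n + 1)).filter fun t => A t - t = A m - m with hT
  have hTne : T.Nonempty := ⟨m, by simp only [hT, mem_filter]; exact ⟨hm, trivial⟩⟩
  set s := T.min' hTne with hs
  obtain ⟨hs1, hs2⟩ := mem_filter.1 (T.min'_mem hTne)
  rw [← hs] at hs1 hs2
  obtain ⟨hslo, hshi⟩ := Finset.mem_Icc.1 hs1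
  have hge : ∀ t, 1 ≤ t → t ≤ n + 1 → A s - s ≤ A t - t := fun t h1 h2 => by
    have := hmin t (Finset.mem_Icc.2 ⟨h1, h2⟩)
    omega
  have hgt : ∀ t, 1 ≤ t → t < s → A s - s < A t - t := fun t h1 h2 => by
    refine lt_of_le_of_ne (hge t h1 (by omega)) fun e => ?_
    have : s ≤ t := by
      rw [hs]
      exact T.min'_le t (mem_filter.2 ⟨Finset.mem_Icc.2 ⟨h1, by omega⟩, by omega⟩)
    omega
  have hAtop : A (n + 1) = n := by
    have : (univ.filter fun i => (f i : ℕ) < n + 1) = univ :=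
      filter_true_of_mem fun i _ => (f i).isLt
    simp only [hA, this, card_univ, Fintype.card_fin]
  refine ⟨⟨s % (n + 1), Nat.mod_lt _ (by omega)⟩, mem_filter.2 ⟨mem_univ _, fun j => ?_⟩⟩
  have hj := j.isLt
  have hval : ∀ i, ((f i - ⟨s % (n + 1), Nat.mod_lt _ (by omega)⟩ : Fin (n + 1)) : ℕ) =
      if s ≤ (f i : ℕ) then (f i : ℕ) - s else (f i : ℕ) + (n + 1) - s := fun i => by
    have hi := (f i).isLt
    rcases Nat.lt_or_ge s (n + 1) with hlt | hge'
    · rw [Fin.sub_def]
      simp only [Nat.mod_eq_of_lt hlt]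
      split_ifs with hle
      · rw [show n + 1 - s + (f i : ℕ) = (f i : ℕ) - s + (n + 1) by omega, Nat.add_mod_right,
          Nat.mod_eq_of_lt (by omega)]
      · rw [show n + 1 - s + (f i : ℕ) = (f i : ℕ) + (n + 1) - s by omega,
          Nat.mod_eq_of_lt (by omega)]
    · have e : s = n + 1 := by omega
      rw [if_neg (by omega), Fin.sub_def]
      simp only [e, Nat.mod_self, Nat.sub_zero, Nat.add_mod_left]
      rw [Nat.mod_eq_of_lt hi]
      omega
  simp only [hval]
  set L := univ.filter fun i =>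
    (if s ≤ (f i : ℕ) then (f i : ℕ) - s else (f i : ℕ) + (n + 1) - s) < (j : ℕ) with hL
  have hsum : ∀ t, A t = ∑ i, (if (f i : ℕ) < t then (1 : ℤ) else 0) := fun t => by
    simp [hA, Finset.sum_boole]
  rcases Nat.eq_zero_or_pos (j : ℕ) with h0 | h0
  · omega
  zify
  rw [show (L.card : ℤ) = ∑ i, (if (if s ≤ (f i : ℕ) then (f i : ℕ) - s
    else (f i : ℕ) + (n + 1) - s) < (j : ℕ) then (1 : ℤ) else 0) by simp [hL, Finset.sum_boole]]
  by_cases hwrap : s + j ≤ n + 1
  · have h1 := hge (s + j) (by omega) hwrap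
    rw [hsum, hsum] at h1
    push_cast at h1
    have e : ∀ i, (if (if s ≤ (f i : ℕ) then (f i : ℕ) - s
        else (f i : ℕ) + (n + 1) - s) < (j : ℕ) then (1 : ℤ) else 0) =
        (if (f i : ℕ) < s + j then (1 : ℤ) else 0) - (if (f i : ℕ) < s then (1 : ℤ) else 0) := by
      intro i
      have := (f i).isLt
      split_ifs <;> omega
    rw [sum_congr rfl fun i _ => e i, sum_sub_distrib]
    omega
  · have h1 := hgt (s + j - (n + 1)) (by omega) (by omega)
    rw [hsum, hsum] at h1
    have h2 := hAtop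
    rw [hsum] at h2
    push_cast [show n + 1 ≤ s + (j : ℕ) by omega] at h1
    have e : ∀ i, (if (if s ≤ (f i : ℕ) then (f i : ℕ) - s
        else (f i : ℕ) + (n + 1) - s) < (j : ℕ) then (1 : ℤ) else 0) =
        (if (f i : ℕ) < n + 1 then (1 : ℤ) else 0) - (if (f i : ℕ) < s then (1 : ℤ) else 0) +
          (if (f i : ℕ) < s + j - (n + 1) then (1 : ℤ) else 0) := by
      intro i
      have := (f i).isLt
      split_ifs <;> omega
    rw [sum_congr rfl fun i _ => e i, sum_add_distrib, sum_sub_distrib]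
    omega

theorem card_parking (n : ℕ) : (n + 1) ^ n ≤ (parking n).card * (n + 1) := by
  have : (univ : Finset (Fin n → Fin (n + 1))) ⊆
      (parking n ×ˢ (univ : Finset (Fin (n + 1)))).image fun p => fun i => p.1 i + p.2 := by
    intro f _
    obtain ⟨s, hs⟩ := exists_rotation f
    exact mem_image.2 ⟨(_, s), mem_product.2 ⟨hs, mem_univ _⟩, funext fun i => sub_add_cancel _ _⟩
  have := (card_le_card this).trans card_image_le
  simpa [card_product] using this

/-- The cell with index `g`. -/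
def cell (a : ℝ) (g : Fin n → Fin (n + 1)) : Set (Fin n → ℝ) :=
  Set.univ.pi fun i => Set.Ioo (-(((g i : ℕ) + 1 : ℝ) * a)) (((g i : ℕ) + 1 : ℝ) * a) \
    Set.Ioo (-(((g i : ℕ) : ℝ) * a)) (((g i : ℕ) : ℝ) * a)

theorem cell_volume {a : ℝ} (ha : 0 ≤ a) (g : Fin n → Fin (n + 1)) :
    volume (cell a g) = ENNReal.ofReal (2 * a) ^ n := by
  rw [cell, volume_pi_pi]
  rw [Finset.prod_congr rfl (g := fun _ => ENNReal.ofReal (2 * a)), prod_const, card_univ,
    Fintype.card_fin]
  intro i _
  have hk : (0 : ℝ) ≤ ((g i : ℕ) : ℝ) := Nat.cast_nonneg _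
  rw [measure_sdiff (Set.Ioo_subset_Ioo (by nlinarith) (by nlinarith))
    measurableSet_Ioo.nullMeasurableSet measure_Ioo_lt_top.ne, Real.volume_Ioo, Real.volume_Ioo,
    ← ENNReal.ofReal_sub _ (by nlinarith)]
  ring_nf

theorem cell_index {a : ℝ} (g : Fin n → Fin (n + 1)) {x : Fin n → ℝ} (hx : x ∈ cell a g)
    (i : Fin n) : ((g i : ℕ) : ℝ) * a ≤ |x i| ∧ |x i| < (((g i : ℕ) : ℝ) + 1) * a := by
  obtain ⟨h1, h2⟩ := hx i trivial
  refine ⟨not_lt.1 fun h => h2 ?_, abs_lt.2 ⟨h1.1, h1.2⟩⟩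
  exact abs_lt.1 h

theorem SymBody.vol_lower {K : Set (Fin (n + 1) → ℝ)} (h : SymBody K) :
    ((n + 2 : ℕ) : ℝ) ^ (n + 1) / ((n + 2 : ℕ) : ℝ) *
      (4 * meanAbs K / ((n : ℝ) + 2)) ^ (n + 1) ≤ volume.real K := by
  classical
  set a := 2 * meanAbs K / ((n : ℝ) + 2) with hadef
  have ha : 0 ≤ a := div_nonneg (mul_nonneg two_pos.le
    (div_nonneg (setIntegral_nonneg h.compact.measurableSet fun x _ => abs_nonneg _) h.vol_pos.le))
    (by positivity)
  have hsub : ∀ g ∈ parking (n + 1), cell a g ⊆ K := by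
    intro g hg x hx
    set σ := Tuple.sort g with hσ
    have hcount : ∀ k : Fin (n + 1), (g (σ k) : ℕ) ≤ k := by
      intro k
      by_contra hlt
      push Not at hlt
      have hk := (mem_filter.1 hg).2 ⟨(k : ℕ) + 1, by omega⟩
      have hs : (univ.filter fun i => (g i : ℕ) < (k : ℕ) + 1) ⊆ (Finset.Iio k).image σ := by
        intro i hi
        refine mem_image.2 ⟨σ.symm i, Finset.mem_Iio.2 (not_le.1 fun hle => ?_), by simp⟩
        have h1 : g (σ k) ≤ g (σ (σ.symm i)) := Tuple.monotone_sort g hle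
        rw [Equiv.apply_symm_apply] at h1
        have h2 : (g (σ k) : ℕ) ≤ (g i : ℕ) := h1
        have := (mem_filter.1 hi).2
        omega
      have := (card_le_card hs).trans card_image_le
      simp only [Fin.card_Iio] at this
      simp only [] at hk
      omega
    refine h.mem_of_abs_le (h.perm σ.symm _ h.linear_mem) fun i => ?_
    refine le_trans ?_ (le_abs_self _)
    refine (cell_index g hx i).2.le.trans (mul_le_mul_of_nonneg_right ?_ ha)
    have := hcount (σ.symm i)
    rw [Equiv.apply_symm_apply] at this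
    have : ((g i : ℕ) : ℝ) ≤ ((σ.symm i : ℕ) : ℝ) := by exact_mod_cast this
    linarith
  have hdisj : Set.PairwiseDisjoint (parking (n + 1) : Set (Fin (n + 1) → Fin (n + 2))) (cell a) := by
    intro g _ g' _ hne
    rw [Function.onFun, Set.disjoint_left]
    intro x hx hx'
    refine hne (funext fun i => ?_)
    obtain ⟨l1, u1⟩ := cell_index g hx i
    obtain ⟨l2, u2⟩ := cell_index g' hx' i
    have h1 : ((g i : ℕ) : ℝ) * a < (((g' i : ℕ) : ℝ) + 1) * a := l1.trans_lt u2
    have h2 : ((g' i : ℕ) : ℝ) * a < (((g i : ℕ) : ℝ) + 1) * a := l2.trans_lt u1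
    have h1' := lt_of_mul_lt_mul_right h1 ha
    have h2' := lt_of_mul_lt_mul_right h2 ha
    have a1 : (g i : ℕ) < (g' i : ℕ) + 1 := by exact_mod_cast h1'
    have a2 : (g' i : ℕ) < (g i : ℕ) + 1 := by exact_mod_cast h2'
    exact Fin.ext (by omega)
  have hmeas : ∀ g ∈ parking (n + 1), MeasurableSet (cell a g) := fun g _ =>
    MeasurableSet.univ_pi fun i => measurableSet_Ioo.diff measurableSet_Ioo
  have hle := measure_mono (μ := volume) (Set.iUnion₂_subset hsub)
  rw [measure_biUnion_finset hdisj hmeas] at hle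
  simp only [cell_volume ha, sum_const, nsmul_eq_mul] at hle
  have hle' := ENNReal.toReal_mono h.compact.measure_lt_top.ne hle
  rw [ENNReal.toReal_mul, ENNReal.toReal_pow, ENNReal.toReal_ofReal (by positivity),
    ENNReal.toReal_natCast] at hle'
  refine le_trans ?_ hle'
  rw [show 4 * meanAbs K / ((n : ℝ) + 2) = 2 * a by rw [hadef]; ring]
  refine mul_le_mul_of_nonneg_right ?_ (by positivity)
  rw [div_le_iff₀ (by positivity)]
  exact_mod_cast card_parking (n + 1)

end Vale.Agent.P254
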