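import Vale.Agent.P254.Sym

/-!
# P254: the centroid of the sorted chamber has a convex profile
-/

namespace Vale.Agent.P254

open MeasureTheory Finset

variable {n : ℕ}

/-- The part of a set in the chamber of sorted nonnegative vectors. -/
def chamber (K : Set (Fin n → ℝ)) : Set (Fin n → ℝ) :=
  {x | x ∈ K ∧ Monotone x ∧ ∀ i, 0 ≤ x i}

theorem chamber_closed {K : Set (Fin n → ℝ)} (hK : IsClosed K) : IsClosed (chamber K) := by
  have : chamber K = K ∩ ((⋂ (i : Fin n) (j : Fin n) (_ : i ≤ j), {x | x i ≤ x j}) ∩
      ⋂ i, {x | 0 ≤ x i}) := by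
    ext x; simp [chamber, Monotone]; tauto
  rw [this]
  exact hK.inter ((isClosed_iInter fun i => isClosed_iInter fun j => isClosed_iInter fun _ =>
    isClosed_le (continuous_apply i) (continuous_apply j)).inter
    (isClosed_iInter fun i => isClosed_le continuous_const (continuous_apply i)))

theorem null_hyperplane (φ : (Fin n → ℝ) →ₗ[ℝ] ℝ) (h : φ ≠ 0) :
    ∀ᵐ x : Fin n → ℝ, φ x ≠ 0 := by
  rw [ae_iff]
  have h2 : LinearMap.ker φ ≠ ⊤ := fun e => h (LinearMap.ker_eq_top.1 e)
  have h3 := Measure.addHaar_submodule volume (LinearMap.ker φ) h2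
  simp only [ne_eq, not_not]
  convert h3 using 2
  ext a
  simp

theorem ae_generic : ∀ᵐ x : Fin n → ℝ, (∀ i, x i ≠ 0) ∧
    ∀ i j, i ≠ j → |x i| ≠ |x j| := by
  refine Filter.Eventually.and (ae_all_iff.2 fun i => ?_) (ae_all_iff.2 fun i => ae_all_iff.2 fun j => ?_)
  · have := null_hyperplane (LinearMap.proj i : (Fin n → ℝ) →ₗ[ℝ] ℝ) (fun e => by
      simpa using congrArg (fun f => f (Pi.single i (1 : ℝ))) e)
    simpa using this
  · by_cases hij : i = j
    · exact Filter.Eventually.of_forall fun x h => absurd hij h
    have h1 := null_hyperplane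
      (LinearMap.proj i - LinearMap.proj j : (Fin n → ℝ) →ₗ[ℝ] ℝ) (fun e => by
        have e' : ((LinearMap.proj i : (Fin n → ℝ) →ₗ[ℝ] ℝ) (Pi.single i 1)) -
            (LinearMap.proj j : (Fin n → ℝ) →ₗ[ℝ] ℝ) (Pi.single i 1) = 0 := by
          rw [← LinearMap.sub_apply, e, LinearMap.zero_apply]
        simp [Pi.single_eq_of_ne (Ne.symm hij)] at e')
    have h2 := null_hyperplane
      (LinearMap.proj i + LinearMap.proj j : (Fin n → ℝ) →ₗ[ℝ] ℝ) (fun e => by
        have e' : ((LinearMap.proj i : (Fin n → ℝ) →ₗ[ℝ] ℝ) (Pi.single i 1)) +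
            (LinearMap.proj j : (Fin n → ℝ) →ₗ[ℝ] ℝ) (Pi.single i 1) = 0 := by
          rw [← LinearMap.add_apply, e, LinearMap.zero_apply]
        simp [Pi.single_eq_of_ne (Ne.symm hij)] at e')
    filter_upwards [h1, h2] with x a b _ hab
    simp at a b
    rcases abs_eq_abs.1 hab with e | e
    · exact a (by linarith)
    · exact b (by linarith)

theorem SymBody.integral_chamber {K : Set (Fin n → ℝ)} (h : SymBody K) {g : (Fin n → ℝ) → ℝ}
    (hg : Continuous g) (hinv : ∀ p x, g (act p x) = g x) :
    ∫ x in K, g x = (Fintype.card (Equiv.Perm (Fin n) × (Fin n → Bool)) : ℝ) *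
      ∫ x in chamber K, g x := by
  classical
  have hm : ∀ p, MeasurableSet (act p ⁻¹' chamber K) := fun p =>
    (act_preserving p).measurable (chamber_closed h.compact.isClosed).measurableSet
  have hae : ∀ᵐ x ∂(volume.restrict K), g x = ∑ p, (act p ⁻¹' chamber K).indicator g x := by
    filter_upwards [ae_restrict_mem h.compact.measurableSet,
      ae_restrict_of_ae ae_generic] with x hx ⟨hx0, hinj⟩
    set a : Fin n → ℝ := fun i => |x i| with ha
    have hainj : Function.Injective a := fun i j e => by_contra fun hne => hinj i j hne e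
    set p₀ : Equiv.Perm (Fin n) × (Fin n → Bool) :=
      (Tuple.sort a, fun i => decide (0 ≤ x (Tuple.sort a i))) with hp₀
    have hact : act p₀ x = a ∘ Tuple.sort a := by
      funext i
      by_cases hpos : 0 ≤ x (Tuple.sort a i)
      · show sgn (decide (0 ≤ x (Tuple.sort a i))) * x (Tuple.sort a i) = |x (Tuple.sort a i)|
        rw [decide_eq_true hpos, abs_of_nonneg hpos]
        simp [sgn]
      · show sgn (decide (0 ≤ x (Tuple.sort a i))) * x (Tuple.sort a i) = |x (Tuple.sort a i)|
        rw [decide_eq_false hpos, abs_of_neg (not_le.1 hpos)]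
        simp [sgn]
    rw [Finset.sum_eq_single p₀]
    · rw [Set.indicator_of_mem]
      refine ⟨h.act_mem p₀ hx, ?_, fun i => ?_⟩
      · rw [hact]; exact Tuple.monotone_sort a
      · rw [hact]; exact abs_nonneg _
    · intro p _ hp
      rw [Set.indicator_of_notMem]
      rintro ⟨-, hmono, hpos⟩
      apply hp
      have habs : act p x = a ∘ p.1 := by
        funext i
        rw [← abs_of_nonneg (hpos i)]
        simp [act, abs_mul, abs_sgn, ha]
      have h1 : p.1 = Tuple.sort a := by
        have := Tuple.unique_monotone (f := a) (habs ▸ hmono) (Tuple.monotone_sort a)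
        exact Equiv.ext fun i => hainj (congrFun this i)
      refine Prod.ext h1 (funext fun i => ?_)
      have h2 := hpos i
      have h3 := hx0 (p.1 i)
      rw [hp₀]
      simp only [← h1]
      cases hb : p.2 i
      · simp only [act, sgn, hb, Bool.false_eq_true, if_false, neg_mul, one_mul] at h2
        simpa using lt_of_le_of_ne (neg_nonneg.1 h2) h3
      · simp only [act, sgn, hb, if_true, one_mul] at h2
        simpa using h2
    · simp
  rw [integral_congr_ae hae, integral_finsetSum]
  swap
  · intro p _
    exact (hg.continuousOn.integrableOn_compact h.compact).indicator (hm p)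
  rw [Finset.sum_congr rfl (g := fun _ => ∫ x in chamber K, g x), Finset.sum_const,
    Finset.card_univ, nsmul_eq_mul]
  intro p _
  rw [setIntegral_indicator (hm p)]
  have hsub : K ∩ act p ⁻¹' chamber K = act p ⁻¹' chamber K :=
    Set.inter_eq_right.2 fun x hx => (h.act_preimage p).le hx.1
  rw [hsub, ← (act_preserving p).setIntegral_preimage_emb (act_embedding p) g (chamber K)]
  simp only [hinv]

/-- The vector extended by `0` in front. -/
def ext0 (x : Fin n → ℝ) : ℕ → ℝ
  | 0 => 0
  | k + 1 => if h : k < n then x ⟨k, h⟩ else 0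

theorem ext0_succ (x : Fin n → ℝ) (i : Fin n) : ext0 x (i + 1) = x i := by simp [ext0]

/-- The second difference at position `j`. -/
def secDiff (x : Fin n → ℝ) (j : ℕ) : ℝ := ext0 x (j + 2) - 2 * ext0 x (j + 1) + ext0 x j

theorem ext0_add (x y : Fin n → ℝ) (m : ℕ) : ext0 (x + y) m = ext0 x m + ext0 y m := by
  cases m with
  | zero => simp [ext0]
  | succ k => by_cases hk : k < n <;> simp [ext0, hk]

theorem ext0_smul (c : ℝ) (x : Fin n → ℝ) (m : ℕ) : ext0 (c • x) m = c * ext0 x m := by
  cases m with
  | zero => simp [ext0]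
  | succ k => by_cases hk : k < n <;> simp [ext0, hk]

/-- The reflection of one coordinate within its neighbours. -/
def swapGap (j : Fin n) : (Fin n → ℝ) →ₗ[ℝ] (Fin n → ℝ) where
  toFun x := fun i => if i = j then x i + secDiff x j else x i
  map_add' x y := by
    funext i
    by_cases hi : i = j <;> simp [secDiff, ext0_add, hi] <;> ring
  map_smul' c x := by
    funext i
    by_cases hi : i = j <;> simp [secDiff, ext0_smul, hi] <;> ring

theorem ext0_swapGap (j : Fin n) (x : Fin n → ℝ) (m : ℕ) :
    ext0 (swapGap j x) m = ext0 x m + if m = (j : ℕ) + 1 then secDiff x j else 0 := by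
  cases m with
  | zero => simp [ext0]
  | succ k =>
    by_cases hk : k < n
    · simp only [ext0, hk, dif_pos, swapGap, LinearMap.coe_mk, AddHom.coe_mk]
      by_cases hi : k = (j : ℕ)
      · simp [hi]
      · simp [hi, Fin.ext_iff]
    · simp only [ext0, hk, dif_neg, not_false_iff]
      have : k + 1 ≠ (j : ℕ) + 1 := by have := j.isLt; omega
      rw [if_neg this, add_zero]

theorem secDiff_swapGap (j : Fin n) (x : Fin n → ℝ) :
    secDiff (swapGap j x) j = -secDiff x j := by
  have key : secDiff (swapGap j x) j = secDiff x j - 2 * secDiff x j := by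
    simp only [secDiff, ext0_swapGap, show (j : ℕ) + 2 ≠ (j : ℕ) + 1 by omega,
      show (j : ℕ) ≠ (j : ℕ) + 1 by omega, if_false, if_true, add_zero]
    ring
  linarith

theorem swapGap_swapGap (j : Fin n) (x : Fin n → ℝ) : swapGap j (swapGap j x) = x := by
  funext i
  by_cases hi : i = j
  · subst hi
    have := secDiff_swapGap i x
    simp only [swapGap, LinearMap.coe_mk, AddHom.coe_mk] at this ⊢
    simp [this]
  · simp [swapGap, hi]

theorem swapGap_preserving (j : Fin n) :
    MeasurePreserving (swapGap j) volume volume := by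
  have hsq : LinearMap.det (swapGap j) * LinearMap.det (swapGap j) = 1 := by
    rw [← LinearMap.det_comp, show (swapGap j).comp (swapGap j) = LinearMap.id from
      LinearMap.ext (swapGap_swapGap j), LinearMap.det_id]
  refine ⟨(LinearMap.continuous_of_finiteDimensional _).measurable, ?_⟩
  rw [Measure.map_linearMap_addHaar_eq_smul_addHaar volume (left_ne_zero_of_mul_eq_one hsq)]
  rcases mul_self_eq_one_iff.1 hsq with e | e <;> simp [e]

theorem SymBody.secDiff_nonneg {K : Set (Fin n → ℝ)} (h : SymBody K) (j : Fin n)
    (hj : (j : ℕ) + 1 < n) : 0 ≤ ∫ x in chamber K, secDiff x j := by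
  have hc : Continuous fun x : Fin n → ℝ => secDiff x j := by
    rcases hk : (j : ℕ) with _ | k <;> simp only [secDiff, ext0] <;> split_ifs <;> fun_prop
  have hC := (chamber_closed h.compact.isClosed).measurableSet
  have hCc : IsCompact (chamber K) :=
    h.compact.of_isClosed_subset (chamber_closed h.compact.isClosed) fun x hx => hx.1
  have hint := hc.continuousOn.integrableOn_compact (μ := volume) hCc
  set N := chamber K ∩ {x | secDiff x j < 0} with hN
  have hNm : MeasurableSet N := hC.inter (measurableSet_lt hc.measurable measurable_const)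
  have hemb : MeasurableEmbedding (swapGap j) :=
    Measurable.measurableEmbedding (swapGap_preserving j).measurable
      (Function.Involutive.injective (swapGap_swapGap j))
  set M := swapGap j ⁻¹' N with hM
  have hsub : M ⊆ chamber K ∩ {x | 0 < secDiff x j} := by
    intro x hx
    obtain ⟨⟨hK, hmono, hpos⟩, hneg⟩ := hx
    set y := swapGap j x with hy
    have hxy : x = swapGap j y := (swapGap_swapGap j x).symm
    have hD : secDiff x j = -secDiff y j := by rw [hxy, secDiff_swapGap]
    rw [Set.mem_ofPred_eq] at hneg
    refine ⟨?_, show 0 < secDiff x j by linarith⟩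
    have hnext : ext0 y ((j : ℕ) + 2) = y ⟨j + 1, hj⟩ := by simp [ext0, hj]
    have hsame : ext0 y ((j : ℕ) + 1) = y j := ext0_succ y j
    have hprev : ∀ i, i < j → y i ≤ ext0 y j := by
      intro i hi
      obtain ⟨k, hk⟩ := Nat.exists_eq_add_one_of_ne_zero (n := (j : ℕ)) (by omega)
      rw [hk]
      simp only [ext0, show k < n by omega, dif_pos]
      exact hmono (Fin.le_def.2 (show (i : ℕ) ≤ k by omega))
    have hprev0 : 0 ≤ ext0 y j := by
      rcases hk : (j : ℕ) with _ | k
      · simp [ext0]
      · simp only [ext0, show k < n by omega, dif_pos]; exact hpos _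
    have hle : ext0 y j ≤ y j := by
      rcases hk : (j : ℕ) with _ | k
      · simpa [ext0] using hpos j
      · simp only [ext0, show k < n by omega, dif_pos]
        exact hmono (Fin.le_def.2 (show k ≤ (j : ℕ) by omega))
    have hup : y j ≤ y ⟨j + 1, hj⟩ := hmono (Fin.le_def.2 (by simp))
    have hxj : x j = y j + secDiff y j := by rw [hxy]; simp [swapGap]
    have hxo : ∀ i, i ≠ j → x i = y i := fun i hi => by rw [hxy]; simp [swapGap, hi]
    simp only [secDiff, hnext, hsame] at hneg hxj
    refine ⟨h.mem_of_abs_le hK fun i => ?_, fun a b hab => ?_, fun i => ?_⟩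
    · by_cases hi : i = j
      · subst hi
        rw [abs_of_nonneg (hpos i), abs_of_nonneg (by linarith)]
        linarith
      · rw [hxo i hi]
    · by_cases ha : a = j <;> by_cases hb : b = j
      · rw [ha, hb]
      · subst ha
        rw [hxo b hb]
        have : y ⟨(a : ℕ) + 1, hj⟩ ≤ y b := hmono (Fin.le_def.2 (by
          have := lt_of_le_of_ne hab (Ne.symm hb); exact this))
        linarith
      · subst hb
        rw [hxo a ha]
        have := hprev a (lt_of_le_of_ne hab ha)
        linarith
      · rw [hxo a ha, hxo b hb]; exact hmono hab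
    · by_cases hi : i = j
      · subst hi; linarith
      · rw [hxo i hi]; exact hpos i
  have hMeq : ∫ x in M, secDiff x j = -∫ x in N, secDiff x j := by
    have := (swapGap_preserving j).setIntegral_preimage_emb hemb (fun x => secDiff x j) N
    simp only [secDiff_swapGap, integral_neg] at this
    linarith
  rw [← integral_inter_add_sdiff (t := {x | secDiff x j < 0})
    (measurableSet_lt hc.measurable measurable_const) hint]
  have hmono : ∫ x in M, secDiff x j ≤ ∫ x in chamber K \ {x | secDiff x j < 0}, secDiff x j := by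
    refine setIntegral_mono_set (hint.mono_set Set.sdiff_subset) ?_
      (Filter.Eventually.of_forall fun x hx => ⟨(hsub hx).1, fun hh => lt_asymm (show secDiff x j < 0 from hh) (hsub hx).2⟩)
    filter_upwards [ae_restrict_mem
      (hC.diff (measurableSet_lt hc.measurable measurable_const))] with x hx
    exact not_lt.1 hx.2
  linarith [hMeq, hN ▸ hMeq]

end Vale.Agent.P254
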