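import Mathlib

/-!
# P254: isotropic constant of bodies in `Fin n → ℝ` and the standard simplex
-/

namespace Vale.Agent.P254

open MeasureTheory

variable {n : ℕ}

/-- The centroid of a set. -/
noncomputable def centroid (K : Set (Fin n → ℝ)) : Fin n → ℝ :=
  fun i => (∫ x in K, x i) / volume.real K

/-- The covariance matrix of the uniform measure on a set. -/
noncomputable def covMat (K : Set (Fin n → ℝ)) : Matrix (Fin n) (Fin n) ℝ :=
  fun i j => (∫ x in K, (x i - centroid K i) * (x j - centroid K j)) / volume.real K

/-- The isotropic constant. -/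
noncomputable def isoConst (K : Set (Fin n → ℝ)) : ℝ :=
  ((covMat K).det / volume.real K ^ 2) ^ (1 / (2 * (n : ℝ)))

/-- The standard simplex, the convex hull of the origin and the coordinate vectors. -/
def simplex (n : ℕ) : Set (Fin n → ℝ) := {x | (∀ i, 0 ≤ x i) ∧ ∑ i, x i ≤ 1}

end Vale.Agent.P254
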