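import Vale.Agent.P254.Sym
import Vale.Agent.P074.BM

/-!
# P254: the second moment of a coordinate is at most twice the square of its mean modulus
-/

namespace Vale.Agent.P254

open MeasureTheory Set
open scoped ENNReal

variable {n : ℕ}

/-- The part of a set beyond level `u` in the first coordinate. -/
def tail (K : Set (Fin (n + 1) → ℝ)) (u : ℝ) : Set (Fin (n + 1) → ℝ) := K ∩ {x | u ≤ x 0}

theorem tail_compact {K : Set (Fin (n + 1) → ℝ)} (hK : IsCompact K) (u : ℝ) :
    IsCompact (tail K u) :=
  hK.inter_right (isClosed_le continuous_const (continuous_apply 0))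

theorem tail_mul {K : Set (Fin (n + 1) → ℝ)} (hK : IsCompact K) (hc : Convex ℝ K) {u v : ℝ}
    (hu : 0 < u) (hv : 0 < v) :
    volume (tail K 0) * volume (tail K (u + v)) ≤ volume (tail K u) * volume (tail K v) := by
  set t := u / (u + v) with ht
  have ht0 : 0 < t := div_pos hu (by linarith)
  have ht1 : t < 1 := (div_lt_one (by linarith)).2 (by linarith)
  have key : ∀ (s : ℝ), 0 < s → s < 1 → volume (tail K 0) ^ (1 - s) *
      volume (tail K (u + v)) ^ s ≤ volume (tail K (s * (u + v))) := fun s hs0 hs1 =>
    P074.BM.bm hs0 hs1 _ _ _ _ (tail_compact hK _) (tail_compact hK _) (tail_compact hK _)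
      fun a ha b hb => ⟨hc ha.1 hb.1 (by linarith) hs0.le (by ring), by
        have h1 : (0 : ℝ) ≤ a 0 := ha.2
        have h2 : u + v ≤ b 0 := hb.2
        show s * (u + v) ≤ (1 - s) * a 0 + s * b 0
        nlinarith [mul_nonneg (sub_nonneg.2 hs1.le) h1, mul_nonneg hs0.le (sub_nonneg.2 h2)]⟩
  have e1 : t * (u + v) = u := by rw [ht]; field_simp
  have e2 : (1 - t) * (u + v) = v := by rw [sub_mul, e1]; ring
  have k1 := key t ht0 ht1
  have k2 := key (1 - t) (by linarith) (by linarith)
  rw [e1] at k1
  rw [e2, sub_sub_cancel] at k2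
  calc volume (tail K 0) * volume (tail K (u + v))
      = (volume (tail K 0) ^ (1 - t) * volume (tail K (u + v)) ^ t) *
        (volume (tail K 0) ^ t * volume (tail K (u + v)) ^ (1 - t)) := by
        conv_lhs => rw [← ENNReal.rpow_one (volume (tail K 0)),
          ← ENNReal.rpow_one (volume (tail K (u + v)))]
        rw [mul_mul_mul_comm, ← ENNReal.rpow_add_of_nonneg _ _ (by linarith) ht0.le,
          ← ENNReal.rpow_add_of_nonneg _ _ ht0.le (by linarith)]
        congr 2 <;> ring
    _ ≤ _ := mul_le_mul' k1 k2

theorem tail_shift (K : Set (Fin (n + 1) → ℝ)) (u : ℝ) :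
    ∫⁻ v in Ioi (0 : ℝ), volume (tail K (u + v)) =
      ∫⁻ x in K, ENNReal.ofReal (max (x 0 - u) 0) := by
  have hm : Continuous fun x : Fin (n + 1) → ℝ => max (x 0 - u) 0 := by fun_prop
  rw [lintegral_eq_lintegral_meas_le (μ := volume.restrict K)
    (Filter.Eventually.of_forall fun x => le_max_right (x 0 - u) (0 : ℝ)) hm.aemeasurable]
  refine setLIntegral_congr_fun measurableSet_Ioi fun v hv => ?_
  rw [Measure.restrict_apply (measurableSet_le measurable_const hm.measurable)]
  congr 1
  ext x
  have hv' : 0 < v := hv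
  simp only [tail, Set.mem_inter_iff, Set.mem_ofPred_eq, le_max_iff, not_le.2 hv', or_false]
  constructor <;> rintro ⟨a, b⟩
  · exact ⟨by linarith, a⟩
  · exact ⟨b, by linarith⟩

theorem ramp_lintegral (y : ℝ) :
    ∫⁻ u in Ioi (0 : ℝ), ENNReal.ofReal (max (y - u) 0) =
      ENNReal.ofReal (max y 0 ^ 2 / 2) := by
  rcases le_total y 0 with hy | hy
  · rw [setLIntegral_congr_fun measurableSet_Ioi (g := fun _ => 0) fun u hu => by
      have hu' : 0 < u := hu
      simp [max_eq_right (show y - u ≤ 0 by linarith)]]
    simp [max_eq_right hy]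
  rw [← lintegral_indicator measurableSet_Ioi]
  have e : (Ioi (0 : ℝ)).indicator (fun u => ENNReal.ofReal (max (y - u) 0)) =
      fun u => ENNReal.ofReal ((Ioc (0 : ℝ) y).indicator (fun u => y - u) u) := by
    funext u
    by_cases h1 : 0 < u
    · rw [indicator_of_mem (show u ∈ Ioi (0 : ℝ) from h1)]
      by_cases h2 : u ≤ y
      · rw [indicator_of_mem (show u ∈ Ioc (0 : ℝ) y from ⟨h1, h2⟩), max_eq_left (by linarith)]
      · rw [indicator_of_notMem (fun h => h2 h.2), max_eq_right (by linarith [not_le.1 h2])]
    · rw [indicator_of_notMem (show u ∉ Ioi (0 : ℝ) from h1),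
        indicator_of_notMem (fun h => h1 h.1)]
      simp
  rw [e, ← ofReal_integral_eq_lintegral_ofReal]
  · rw [integral_indicator measurableSet_Ioc, ← intervalIntegral.integral_of_le hy,
      intervalIntegral.integral_sub intervalIntegrable_const intervalIntegral.intervalIntegrable_id,
      intervalIntegral.integral_const, integral_id, max_eq_left hy]
    congr 1
    rw [smul_eq_mul]
    ring
  · exact (integrable_indicator_iff measurableSet_Ioc).2
      ((continuous_const.sub continuous_id).integrableOn_Ioc)
  · refine Filter.Eventually.of_forall fun u => indicator_nonneg (fun v hv => ?_) u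
    linarith [hv.2]

theorem SymBody.moment_le {K : Set (Fin (n + 1) → ℝ)} (h : SymBody K) :
    meanSqCoord K ≤ 2 * meanAbs K ^ 2 := by
  set S := ∫⁻ x in K, ENNReal.ofReal (max (x 0) 0) with hS
  set W := ∫⁻ x in K, ENNReal.ofReal (max (x 0) 0 ^ 2 / 2) with hW
  have hmain : volume (tail K 0) * W ≤ S * S := by
    have hcm : Measurable fun p : ℝ × (Fin (n + 1) → ℝ) =>
        ENNReal.ofReal (max (p.2 0 - p.1) 0) := by fun_prop
    have hswap : W = ∫⁻ u in Ioi (0 : ℝ), ∫⁻ v in Ioi (0 : ℝ), volume (tail K (u + v)) := by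
      rw [setLIntegral_congr_fun measurableSet_Ioi fun u hu =>
        tail_shift K u, lintegral_lintegral_swap hcm.aemeasurable]
      simp only [hW, ramp_lintegral]
    have hS' : S = ∫⁻ v in Ioi (0 : ℝ), volume (tail K v) := by
      have := tail_shift K 0
      simpa [hS] using this.symm
    have hne : volume (tail K 0) ≠ ∞ := (tail_compact h.compact 0).measure_lt_top.ne
    have hSne : S ≠ ∞ := by
      rw [hS]
      exact ((setLIntegral_lt_top_of_isCompact h.compact.measure_lt_top.ne h.compact
        (f := fun x => Real.toNNReal (max (x 0) 0)) (by fun_prop))).ne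
    calc volume (tail K 0) * W = ∫⁻ u in Ioi (0 : ℝ), ∫⁻ v in Ioi (0 : ℝ),
          volume (tail K 0) * volume (tail K (u + v)) := by
          rw [hswap, ← lintegral_const_mul' _ _ hne]
          simp only [lintegral_const_mul' _ _ hne]
      _ ≤ ∫⁻ u in Ioi (0 : ℝ), ∫⁻ v in Ioi (0 : ℝ), volume (tail K u) * volume (tail K v) :=
          setLIntegral_mono' measurableSet_Ioi fun u hu =>
            setLIntegral_mono' measurableSet_Ioi fun v hv => tail_mul h.compact h.convex hu hv
      _ = S * S := by
          rw [setLIntegral_congr_fun measurableSet_Ioi (g := fun u => volume (tail K u) * S)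
            fun u _ => by rw [lintegral_const_mul' _ _ (tail_compact h.compact u).measure_lt_top.ne,
              ← hS'], lintegral_mul_const' _ _ hSne, ← hS']
  set p : Equiv.Perm (Fin (n + 1)) × (Fin (n + 1) → Bool) := (1, fun _ => false)
  have hact : ∀ x : Fin (n + 1) → ℝ, act p x 0 = -x 0 := fun x => by simp [act, p, sgn]
  have hi1 : IntegrableOn (fun x : Fin (n + 1) → ℝ => max (x 0) 0) K volume :=
    (Continuous.continuousOn (by fun_prop)).integrableOn_compact h.compact
  have hi1' : IntegrableOn (fun x : Fin (n + 1) → ℝ => max (-x 0) 0) K volume :=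
    (Continuous.continuousOn (by fun_prop)).integrableOn_compact h.compact
  have hi2 : IntegrableOn (fun x : Fin (n + 1) → ℝ => max (x 0) 0 ^ 2) K volume :=
    (Continuous.continuousOn (by fun_prop)).integrableOn_compact h.compact
  have hi2' : IntegrableOn (fun x : Fin (n + 1) → ℝ => max (-x 0) 0 ^ 2) K volume :=
    (Continuous.continuousOn (by fun_prop)).integrableOn_compact h.compact
  have hA : ∫ x in K, |x 0| = 2 * ∫ x in K, max (x 0) 0 := by
    rw [two_mul]
    conv_rhs => arg 2; rw [← h.integral_act p fun x => max (x 0) 0]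
    simp only [hact]
    rw [← integral_add hi1 hi1']
    exact integral_congr_ae (Filter.Eventually.of_forall fun x => by
      rcases le_total (x 0) 0 with e | e
      · simp [abs_of_nonpos e, max_eq_right e, max_eq_left (neg_nonneg.2 e)]
      · simp [abs_of_nonneg e, max_eq_left e, max_eq_right (neg_nonpos.2 e)])
  have hB : ∫ x in K, x 0 ^ 2 = 2 * ∫ x in K, max (x 0) 0 ^ 2 := by
    rw [two_mul]
    conv_rhs => arg 2; rw [← h.integral_act p fun x => max (x 0) 0 ^ 2]
    simp only [hact]
    rw [← integral_add hi2 hi2']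
    exact integral_congr_ae (Filter.Eventually.of_forall fun x => by
      rcases le_total (x 0) 0 with e | e
      · simp [max_eq_right e, max_eq_left (neg_nonneg.2 e)]
      · simp [max_eq_left e, max_eq_right (neg_nonpos.2 e)])
  have hV : volume.real K ≤ 2 * volume.real (tail K 0) := by
    have hsub : K ⊆ tail K 0 ∪ act p ⁻¹' tail K 0 := by
      intro x hx
      rcases le_total 0 (x 0) with e | e
      · exact Or.inl ⟨hx, e⟩
      · exact Or.inr ⟨h.act_mem p hx, show 0 ≤ act p x 0 by rw [hact]; linarith⟩
    have hpre : volume (act p ⁻¹' tail K 0) = volume (tail K 0) :=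
      (act_preserving p).measure_preimage (tail_compact h.compact 0).measurableSet.nullMeasurableSet
    have := (measure_mono (μ := volume) hsub).trans (measure_union_le _ _)
    rw [hpre, ← two_mul] at this
    have := ENNReal.toReal_mono
      (ENNReal.mul_ne_top (by simp) (tail_compact h.compact 0).measure_lt_top.ne) this
    simpa [measureReal_def, ENNReal.toReal_mul] using this
  have hW' : W.toReal = (∫ x in K, max (x 0) 0 ^ 2) / 2 := by
    rw [hW, ← ofReal_integral_eq_lintegral_ofReal (hi2.div_const 2)
      (Filter.Eventually.of_forall fun x => by positivity),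
      ENNReal.toReal_ofReal (integral_nonneg fun x => by positivity), integral_div]
  have hS' : S.toReal = ∫ x in K, max (x 0) 0 := by
    rw [hS, ← ofReal_integral_eq_lintegral_ofReal hi1
      (Filter.Eventually.of_forall fun x => le_max_right (x 0) (0 : ℝ)),
      ENNReal.toReal_ofReal (integral_nonneg fun (x : Fin (n + 1) → ℝ) => le_max_right (x 0) (0 : ℝ))]
  have hSne : S ≠ ∞ := by
    rw [hS, ← ofReal_integral_eq_lintegral_ofReal hi1
      (Filter.Eventually.of_forall fun x => le_max_right (x 0) (0 : ℝ))]
    exact ENNReal.ofReal_ne_top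
  have hfin := ENNReal.toReal_mono (ENNReal.mul_ne_top hSne hSne) hmain
  rw [ENNReal.toReal_mul, ENNReal.toReal_mul, hW', hS', ← measureReal_def] at hfin
  have hB0 : 0 ≤ ∫ x in K, max (x 0) 0 ^ 2 := integral_nonneg fun x => by positivity
  have hV0 := h.vol_pos
  rw [meanSqCoord, meanAbs, hA, hB, div_pow, ← mul_div_assoc, div_le_div_iff₀ hV0 (by positivity)]
  nlinarith [mul_le_mul_of_nonneg_right hV hB0]

end Vale.Agent.P254
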