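import Vale.Agent.P254.Defs

/-!
# P254: monomial integrals over the standard simplex and its isotropic constant
-/

namespace Vale.Agent.P254

open MeasureTheory Finset
open scoped ENNReal Nat Pointwise

variable {n : ℕ}

/-- The dilated simplex. -/
def dilSimplex (n : ℕ) (t : ℝ) : Set (Fin n → ℝ) := {x | (∀ i, 0 ≤ x i) ∧ ∑ i, x i ≤ t}

theorem dilSimplex_one : dilSimplex n 1 = simplex n := rfl

theorem dilSimplex_compact (t : ℝ) : IsCompact (dilSimplex n t) := by
  refine (isCompact_Icc (a := (0 : Fin n → ℝ)) (b := fun _ => t)).of_isClosed_subset ?_ fun x hx =>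
    ⟨hx.1, fun i => (single_le_sum (fun j _ => hx.1 j) (mem_univ i)).trans hx.2⟩
  have : dilSimplex n t = (⋂ i, {x | 0 ≤ x i}) ∩ {x | ∑ i, x i ≤ t} := by
    ext x; simp [dilSimplex]
  rw [this]
  exact (isClosed_iInter fun i => isClosed_le continuous_const (continuous_apply i)).inter
    (isClosed_le (by fun_prop) continuous_const)

theorem smul_simplex {t : ℝ} (ht : 0 < t) : t • simplex n = dilSimplex n t := by
  ext x
  rw [Set.mem_smul_set_iff_inv_smul_mem₀ ht.ne']
  simp only [simplex, dilSimplex, Set.mem_ofPred_eq, Pi.smul_apply, smul_eq_mul, ← mul_sum]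
  constructor <;> rintro ⟨a, b⟩
  · exact ⟨fun i => nonneg_of_mul_nonneg_right (a i) (inv_pos.2 ht), by
      rwa [inv_mul_le_iff₀ ht, mul_one] at b⟩
  · exact ⟨fun i => mul_nonneg (inv_pos.2 ht).le (a i), by rwa [inv_mul_le_iff₀ ht, mul_one]⟩

theorem simplex_monomial (a : Fin n → ℕ) :
    ∫ x in simplex n, ∏ i, x i ^ a i = (∏ i, ((a i)! : ℝ)) / ((n + ∑ i, a i)! : ℝ) := by
  classical
  set m : (Fin n → ℝ) → ℝ := fun x => ∏ i, x i ^ a i with hm
  set k := n + ∑ i, a i with hk
  set I := ∫ x in simplex n, m x with hI
  have hmc : Continuous m := by fun_prop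
  have hI0 : 0 ≤ I := setIntegral_nonneg (dilSimplex_compact 1).measurableSet fun x hx =>
    prod_nonneg fun i _ => pow_nonneg (hx.1 i) _
  have hgamma : ∀ d : ℕ, ∫ t in Set.Ioi (0 : ℝ), Real.exp (-t) * t ^ d = (d ! : ℝ) := fun d => by
    rw [← Real.Gamma_nat_eq_factorial, Real.Gamma_eq_integral (by positivity)]
    simp
  have hgi : ∀ d : ℕ, IntegrableOn (fun t : ℝ => Real.exp (-t) * t ^ d) (Set.Ioi 0) volume :=
    fun d => by
    have := Real.GammaIntegral_convergent (s := (d : ℝ) + 1) (by positivity)
    simpa using this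
  set g : Fin n → ℝ → ℝ := fun i => (Set.Ici 0).indicator fun t => Real.exp (-t) * t ^ a i with hg
  have hgint : ∀ i, Integrable (g i) volume := fun i =>
    (integrable_indicator_iff measurableSet_Ici).2 ((integrableOn_Ici_iff_integrableOn_Ioi).2 (hgi _))
  have hprod : ∫⁻ x : Fin n → ℝ, ENNReal.ofReal (∏ i, g i (x i)) =
      ENNReal.ofReal (∏ i, ((a i)! : ℝ)) := by
    have hI' : Integrable (fun x : Fin n → ℝ => ∏ i, g i (x i)) volume := by
      simpa only [← volume_pi] using Integrable.fintype_prod hgint
    rw [← ofReal_integral_eq_lintegral_ofReal hI'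
      (Filter.Eventually.of_forall fun x => prod_nonneg fun i _ =>
        Set.indicator_nonneg (fun t (ht : (0:ℝ) ≤ t) => by positivity) _),
      integral_fintype_prod_volume_eq_prod]
    congr 1
    refine prod_congr rfl fun i _ => ?_
    rw [hg, integral_indicator measurableSet_Ici, integral_Ici_eq_integral_Ioi, hgamma]
  set U : Set ((Fin n → ℝ) × ℝ) := {p | (∀ i, 0 ≤ p.1 i) ∧ ∑ i, p.1 i ≤ p.2} with hU
  have hUc : IsClosed U := by
    have : U = (⋂ i, {p | 0 ≤ p.1 i}) ∩ {p | ∑ i, p.1 i ≤ p.2} := by ext p; simp [hU]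
    rw [this]
    exact (isClosed_iInter fun i => isClosed_le continuous_const (by fun_prop)).inter
      (isClosed_le (by fun_prop) continuous_snd)
  set G : (Fin n → ℝ) → ℝ → ℝ≥0∞ := fun x t =>
    U.indicator (fun p => ENNReal.ofReal (m p.1) * ENNReal.ofReal (Real.exp (-p.2))) (x, t) with hG
  have hGm : Measurable (Function.uncurry G) :=
    (Measurable.indicator (by fun_prop) hUc.measurableSet)
  have hx : ∀ x, ∫⁻ t, G x t = ENNReal.ofReal (∏ i, g i (x i)) := by
    intro x
    by_cases hpos : ∀ i, 0 ≤ x i
    · have hG' : G x = (Set.Ici (∑ i, x i)).indicator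
          fun t => ENNReal.ofReal (m x) * ENNReal.ofReal (Real.exp (-t)) := by
        funext t
        simp only [hG, Set.indicator, hU, Set.mem_ofPred_eq, Set.mem_Ici]
        simp [hpos]
      rw [hG', lintegral_indicator measurableSet_Ici, lintegral_const_mul _ (by fun_prop),
        setLIntegral_congr Ioi_ae_eq_Ici.symm,
        ← ofReal_integral_eq_lintegral_ofReal (integrableOn_exp_neg_Ioi _)
          (Filter.Eventually.of_forall fun t => (Real.exp_pos _).le), integral_exp_neg_Ioi,
        ← ENNReal.ofReal_mul (prod_nonneg fun i _ => pow_nonneg (hpos i) _)]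
      congr 1
      rw [← sum_neg_distrib, Real.exp_sum, ← prod_mul_distrib]
      refine prod_congr rfl fun i _ => ?_
      rw [hg]; simp only []
      rw [Set.indicator_of_mem (show x i ∈ Set.Ici (0 : ℝ) from hpos i)]
      ring
    · have hG' : G x = 0 := by
        funext t
        simp only [hG, Set.indicator, hU, Set.mem_ofPred_eq]
        simp [hpos]
      push Not at hpos
      obtain ⟨i, hi⟩ := hpos
      rw [hG', prod_eq_zero (mem_univ i)
        (Set.indicator_of_notMem (show x i ∉ Set.Ici (0 : ℝ) from not_le.2 hi) _)]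
      simp
  have ht : ∀ᵐ t : ℝ, ∫⁻ x, G x t =
      (Set.Ioi 0).indicator (fun t => ENNReal.ofReal (Real.exp (-t) * t ^ k * I)) t := by
    filter_upwards [Measure.ae_ne volume (0 : ℝ)] with t ht0
    rcases lt_or_gt_of_ne ht0 with htneg | htpos
    · rw [Set.indicator_of_notMem (show t ∉ Set.Ioi (0 : ℝ) from not_lt.2 htneg.le)]
      have : ∀ x, G x t = 0 := fun x => Set.indicator_of_notMem (fun hh => by
        have := hh.2
        have := sum_nonneg fun i (_ : i ∈ univ) => hh.1 i
        simp only [] at *
        linarith) _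
      simp [this]
    · rw [Set.indicator_of_mem (show t ∈ Set.Ioi (0 : ℝ) from htpos)]
      have hG' : (fun x => G x t) = (dilSimplex n t).indicator
          fun x => ENNReal.ofReal (m x) * ENNReal.ofReal (Real.exp (-t)) := by
        funext x
        by_cases hmem : x ∈ dilSimplex n t
        · rw [Set.indicator_of_mem hmem]
          exact Set.indicator_of_mem (show (x, t) ∈ U from hmem) _
        · rw [Set.indicator_of_notMem hmem]
          exact Set.indicator_of_notMem (show (x, t) ∉ U from hmem) _
      rw [hG', lintegral_indicator (dilSimplex_compact t).measurableSet,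
        lintegral_mul_const _ (by fun_prop), ← ofReal_integral_eq_lintegral_ofReal
          (hmc.continuousOn.integrableOn_compact (dilSimplex_compact t))
          ((ae_restrict_mem (dilSimplex_compact t).measurableSet).mono fun x hx =>
            prod_nonneg fun i _ => pow_nonneg (hx.1 i) _),
        ← ENNReal.ofReal_mul (setIntegral_nonneg (dilSimplex_compact t).measurableSet fun x hx =>
            prod_nonneg fun i _ => pow_nonneg (hx.1 i) _)]
      congr 1
      have hsc := Measure.setIntegral_comp_smul_of_pos volume m (simplex n) htpos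
      rw [smul_simplex htpos, Module.finrank_fin_fun] at hsc
      have hhom : ∀ x, m (t • x) = t ^ (∑ i, a i) * m x := fun x => by
        simp [hm, mul_pow, prod_mul_distrib, prod_pow_eq_pow_sum]
      simp only [hhom, integral_const_mul, smul_eq_mul, ← hI] at hsc
      have e2 : ∫ x in dilSimplex n t, m x = t ^ k * I := by
        rw [hk, pow_add]
        field_simp at hsc
        linarith
      rw [e2]; ring
  have hswap := lintegral_lintegral_swap (μ := volume) (ν := volume) hGm.aemeasurable
  rw [lintegral_congr hx, hprod, lintegral_congr_ae ht, lintegral_indicator measurableSet_Ioi,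
    ← ofReal_integral_eq_lintegral_ofReal ((hgi k).mul_const I)
      ((ae_restrict_mem measurableSet_Ioi).mono fun t (htp : 0 < t) => by positivity),
    integral_mul_const, hgamma] at hswap
  have := (ENNReal.ofReal_eq_ofReal_iff (prod_nonneg fun i _ => Nat.cast_nonneg _)
    (mul_nonneg (Nat.cast_nonneg _) hI0)).1 hswap
  show I = _
  rw [this]
  have : ((n + ∑ i, a i)! : ℝ) ≠ 0 := by exact_mod_cast Nat.factorial_ne_zero _
  rw [← hk] at this
  field_simp

theorem simplex_vol : volume.real (simplex n) = 1 / (n ! : ℝ) := by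
  have := simplex_monomial (fun _ : Fin n => 0)
  simpa using this

theorem simplex_first (i : Fin n) : ∫ x in simplex n, x i = 1 / ((n + 1)! : ℝ) := by
  have h := simplex_monomial (Pi.single i 1 : Fin n → ℕ)
  have e : ∀ x : Fin n → ℝ, ∏ l, x l ^ (Pi.single i 1 : Fin n → ℕ) l = x i := fun x => by
    rw [prod_eq_single i (fun l _ hl => by simp [hl]) (by simp)]
    simp
  have e2 : ∏ l, (((Pi.single i 1 : Fin n → ℕ) l)! : ℝ) = 1 :=
    prod_eq_one fun l _ => by by_cases hl : l = i <;> simp [hl]
  simp only [e, e2, Finset.sum_pi_single', mem_univ, if_true] at h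
  exact h

theorem simplex_second (i j : Fin n) :
    ∫ x in simplex n, x i * x j = (if i = j then 2 else 1) / ((n + 2)! : ℝ) := by
  by_cases hij : i = j
  · subst hij
    have h := simplex_monomial (Pi.single i 2 : Fin n → ℕ)
    have e : ∀ x : Fin n → ℝ, ∏ l, x l ^ (Pi.single i 2 : Fin n → ℕ) l = x i * x i := fun x => by
      rw [prod_eq_single i (fun l _ hl => by simp [hl]) (by simp)]
      simp [pow_two]
    have e2 : ∏ l, (((Pi.single i 2 : Fin n → ℕ) l)! : ℝ) = 2 := by
      rw [prod_eq_single i (fun l _ hl => by simp [hl]) (by simp)]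
      simp
    simp only [e, e2, Finset.sum_pi_single', mem_univ, if_true] at h
    simpa using h
  · have h := simplex_monomial (Pi.single i 1 + Pi.single j 1 : Fin n → ℕ)
    have e : ∀ x : Fin n → ℝ, ∏ l, x l ^ (Pi.single i 1 + Pi.single j 1 : Fin n → ℕ) l =
        x i * x j := fun x => by
      simp only [Pi.add_apply, pow_add, prod_mul_distrib]
      congr 1 <;>
      · rw [prod_eq_single _ (fun l _ hl => by rw [Pi.single_eq_of_ne hl]; simp) (by simp)]
        simp
    have e2 : ∏ l, (((Pi.single i 1 + Pi.single j 1 : Fin n → ℕ) l)! : ℝ) = 1 :=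
      prod_eq_one fun l _ => by
        by_cases hl : l = i
        · subst hl; simp [hij]
        · by_cases hl' : l = j
          · subst hl'; simp [Pi.single_eq_of_ne hl]
          · simp [hl, hl']
    simp only [e, e2] at h
    simp only [Pi.add_apply, sum_add_distrib, Finset.sum_pi_single', mem_univ, if_true] at h
    simpa [hij] using h

theorem simplex_det :
    (covMat (simplex n)).det / volume.real (simplex n) ^ 2 =
      (n ! : ℝ) ^ 2 / (((n : ℝ) + 1) ^ (n + 1) * ((n : ℝ) + 2) ^ n) := by
  have hfac : (n ! : ℝ) ≠ 0 := by exact_mod_cast Nat.factorial_ne_zero n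
  have hcen : ∀ i, centroid (simplex n) i = 1 / ((n : ℝ) + 1) := fun i => by
    rw [centroid, simplex_first, simplex_vol, Nat.factorial_succ]
    push_cast
    field_simp
  set α : ℝ := 1 / (((n : ℝ) + 1) * ((n : ℝ) + 2)) with hα
  set β : ℝ := -1 / (((n : ℝ) + 1) ^ 2 * ((n : ℝ) + 2)) with hβ
  have hint : ∀ f : (Fin n → ℝ) → ℝ, Continuous f → IntegrableOn f (simplex n) volume :=
    fun f hf => hf.continuousOn.integrableOn_compact (dilSimplex_compact 1)
  have hM : covMat (simplex n) = α • (1 + Matrix.replicateCol Unit (fun _ => β / α) *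
      Matrix.replicateRow Unit (fun _ => (1 : ℝ))) := by
    ext i j
    simp only [Matrix.smul_apply, Matrix.add_apply, Matrix.mul_apply, Matrix.replicateCol_apply,
      Matrix.replicateRow_apply, Finset.univ_unique, sum_singleton, smul_eq_mul, mul_one,
      Matrix.one_apply]
    simp only [covMat, hcen]
    set c : ℝ := 1 / ((n : ℝ) + 1) with hc
    have e : ∫ x in simplex n, (x i - c) * (x j - c) = (∫ x in simplex n, x i * x j) -
        c * (∫ x in simplex n, x i) - c * (∫ x in simplex n, x j) +
        c * c * volume.real (simplex n) := by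
      have e1 : (fun x : Fin n → ℝ => (x i - c) * (x j - c)) =
          fun x => x i * x j - c * x i - c * x j + c * c := by funext x; ring
      rw [e1, integral_add (hint _ (by fun_prop)) (hint _ (by fun_prop)),
        integral_sub (hint _ (by fun_prop)) (hint _ (by fun_prop)),
        integral_sub (hint _ (by fun_prop)) (hint _ (by fun_prop)),
        integral_const_mul, integral_const_mul, setIntegral_const, smul_eq_mul]
      ring
    rw [e, simplex_second, simplex_first, simplex_first, simplex_vol, hc, hα, hβ,
      Nat.factorial_succ (n + 1), Nat.factorial_succ n]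
    push_cast
    split_ifs <;> field_simp <;> ring
  rw [hM, Matrix.det_smul, Fintype.card_fin, Matrix.det_one_add_replicateCol_mul_replicateRow,
    simplex_vol, hα, hβ]
  simp only [dotProduct, sum_const, card_univ, Fintype.card_fin, one_mul, nsmul_eq_mul]
  rw [div_pow, mul_pow, pow_succ]
  field_simp
  ring

end Vale.Agent.P254
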