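import Vale.Agent.P254.Cells
import Vale.Agent.P254.Moment
import Vale.Agent.P254.Simplex

/-!
# P254: symmetric bodies have smaller isotropic constant than the simplex in high dimension
-/

namespace Vale.Agent.P254

open MeasureTheory
open scoped Nat

variable {n : ℕ}

theorem SymBody.ratio_le {K : Set (Fin (n + 1) → ℝ)} (h : SymBody K) :
    (covMat K).det / volume.real K ^ 2 ≤ ((n : ℝ) + 2) ^ 2 / 8 ^ (n + 1) := by
  have hV := h.vol_pos
  have hlow := h.vol_lower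
  have hmom := h.moment_le
  have hr0 : 0 ≤ meanSqCoord K :=
    div_nonneg (setIntegral_nonneg h.compact.measurableSet fun x _ => sq_nonneg _) hV.le
  rw [h.det_covMat]
  set b := meanAbs K
  set V := volume.real K
  have hb0 : 0 ≤ b :=
    div_nonneg (setIntegral_nonneg h.compact.measurableSet fun x _ => abs_nonneg _) hV.le
  have e : ((n + 2 : ℕ) : ℝ) ^ (n + 1) / ((n + 2 : ℕ) : ℝ) * (4 * b / ((n : ℝ) + 2)) ^ (n + 1) =
      (4 * b) ^ (n + 1) / ((n : ℝ) + 2) := by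
    push_cast
    rw [div_pow]
    field_simp
  rw [e, div_le_iff₀ (by positivity)] at hlow
  rw [div_le_div_iff₀ (by positivity) (by positivity), ← mul_pow]
  calc (meanSqCoord K * 8) ^ (n + 1) ≤ ((4 * b) ^ 2) ^ (n + 1) :=
        pow_le_pow_left₀ (by positivity) (by nlinarith) _
    _ = ((4 * b) ^ (n + 1)) ^ 2 := by rw [← pow_mul, ← pow_mul, mul_comm (2 : ℕ)]
    _ ≤ (V * ((n : ℝ) + 2)) ^ 2 := pow_le_pow_left₀ (by positivity) hlow 2
    _ = _ := by ring

theorem growth (m : ℕ) (hm : 140 ≤ m) :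
    (20086 / 1000 : ℝ) * ((m : ℝ) + 1) ^ 3 < (6283 / 1000) * (m : ℝ) * (10826 / 10000 : ℝ) ^ m := by
  induction m, hm using Nat.le_induction with
  | base => norm_num
  | succ k hk ih =>
    have hk' : (140 : ℝ) ≤ k := by exact_mod_cast hk
    push_cast
    have h1 : (((k : ℝ) + 1) + 1) ^ 3 ≤ (10826 / 10000 : ℝ) * ((k : ℝ) + 1) ^ 3 := by
      nlinarith [mul_le_mul_of_nonneg_right hk' (by positivity : (0 : ℝ) ≤ ((k : ℝ) + 1) ^ 2),
        mul_le_mul_of_nonneg_right hk' (by positivity : (0 : ℝ) ≤ ((k : ℝ) + 1))]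
    have h2 : (0 : ℝ) < (10826 / 10000 : ℝ) ^ k := by positivity
    rw [pow_succ (10826 / 10000 : ℝ) k]
    linarith [mul_lt_mul_of_pos_left ih (show (0 : ℝ) < 10826 / 10000 by norm_num)]

theorem numeric (m : ℕ) (hm : 140 ≤ m) :
    ((m : ℝ) + 1) ^ 2 / 8 ^ m < (m ! : ℝ) ^ 2 / (((m : ℝ) + 1) ^ (m + 1) * ((m : ℝ) + 2) ^ m) := by
  have hm0 : (0 : ℝ) < m := by exact_mod_cast (show 0 < m by omega)
  have he : Real.exp 1 < 27182818286 / 10000000000 :=
    lt_of_lt_of_le Real.exp_one_lt_d9 (by norm_num)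
  have he0 : (0 : ℝ) < Real.exp 1 := Real.exp_pos 1
  have hst := pow_le_pow_left₀ (by positivity) (Stirling.le_factorial_stirling m) 2
  rw [mul_pow, Real.sq_sqrt (by positivity), div_pow, div_pow, ← pow_mul, ← pow_mul] at hst
  rw [div_lt_div_iff₀ (by positivity) (by positivity)]
  have h1 : ((m : ℝ) + 1) ^ m ≤ (m : ℝ) ^ m * Real.exp 1 := by
    have := pow_le_pow_left₀ (by positivity) (Real.add_one_le_exp (1 / (m : ℝ))) m
    rw [← Real.exp_nat_mul, mul_div_cancel₀ _ hm0.ne',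
      show 1 / (m : ℝ) + 1 = ((m : ℝ) + 1) / m by field_simp; ring, div_pow,
      div_le_iff₀ (by positivity)] at this
    linarith
  have h2 : ((m : ℝ) + 2) ^ m ≤ (m : ℝ) ^ m * Real.exp 1 ^ 2 := by
    have := pow_le_pow_left₀ (by positivity) (Real.add_one_le_exp (2 / (m : ℝ))) m
    rw [← Real.exp_nat_mul, mul_div_cancel₀ _ hm0.ne',
      show 2 / (m : ℝ) + 1 = ((m : ℝ) + 2) / m by field_simp; ring, div_pow,
      div_le_iff₀ (by positivity)] at this
    rw [← Real.exp_nat_mul]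
    push_cast
    simp only [mul_one]
    linarith
  have key : Real.exp 1 ^ 3 * ((m : ℝ) + 1) ^ 3 * Real.exp 1 ^ (m * 2) <
      2 * Real.pi * m * 8 ^ m := by
    have hq : (10826 / 10000 : ℝ) * Real.exp 1 ^ 2 ≤ 8 := by
      have := pow_le_pow_left₀ he0.le he.le 2
      nlinarith
    have h8 := pow_le_pow_left₀ (by positivity) hq m
    rw [mul_pow, ← pow_mul, mul_comm 2 m] at h8
    have h3 : Real.exp 1 ^ 3 ≤ 20086 / 1000 :=
      (pow_le_pow_left₀ he0.le he.le 3).trans (by norm_num)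
    have hpi : (6283 / 1000 : ℝ) ≤ 2 * Real.pi := by linarith [Real.pi_gt_d4]
    calc Real.exp 1 ^ 3 * ((m : ℝ) + 1) ^ 3 * Real.exp 1 ^ (m * 2)
        ≤ 20086 / 1000 * ((m : ℝ) + 1) ^ 3 * Real.exp 1 ^ (m * 2) := by gcongr
      _ < 6283 / 1000 * m * (10826 / 10000) ^ m * Real.exp 1 ^ (m * 2) :=
          mul_lt_mul_of_pos_right (growth m hm) (by positivity)
      _ ≤ 6283 / 1000 * m * 8 ^ m := by
          rw [mul_assoc (6283 / 1000 * (m : ℝ))]
          exact mul_le_mul_of_nonneg_left h8 (by positivity)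
      _ ≤ _ := by gcongr
  have hpos : (0 : ℝ) < (m : ℝ) ^ (m * 2) / Real.exp 1 ^ (m * 2) := by positivity
  calc ((m : ℝ) + 1) ^ 2 * (((m : ℝ) + 1) ^ (m + 1) * ((m : ℝ) + 2) ^ m)
      ≤ ((m : ℝ) + 1) ^ 2 * ((((m : ℝ) ^ m * Real.exp 1) * ((m : ℝ) + 1)) *
          ((m : ℝ) ^ m * Real.exp 1 ^ 2)) := by rw [pow_succ _ m]; gcongr
    _ = ((m : ℝ) ^ (m * 2) / Real.exp 1 ^ (m * 2)) *
          (Real.exp 1 ^ 3 * ((m : ℝ) + 1) ^ 3 * Real.exp 1 ^ (m * 2)) := by
        rw [pow_mul (m : ℝ) m 2]; field_simp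
    _ < ((m : ℝ) ^ (m * 2) / Real.exp 1 ^ (m * 2)) * (2 * Real.pi * m * 8 ^ m) :=
        mul_lt_mul_of_pos_left key hpos
    _ = (2 * Real.pi * m * ((m : ℝ) ^ (m * 2) / Real.exp 1 ^ (m * 2))) * 8 ^ m := by ring
    _ ≤ (m ! : ℝ) ^ 2 * 8 ^ m := mul_le_mul_of_nonneg_right (by linarith [hst]) (by positivity)

/-- Symmetric bodies in dimension at least `140` are beaten strictly by the simplex. -/
theorem isoConst_lt (hn : 140 ≤ n + 1) {K : Set (Fin (n + 1) → ℝ)} (h : SymBody K) :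
    isoConst K < isoConst (simplex (n + 1)) := by
  have h1 := h.ratio_le
  have h2 := numeric (n + 1) hn
  have h3 : 0 ≤ (covMat K).det / volume.real K ^ 2 := by
    rw [h.det_covMat]
    exact div_nonneg (pow_nonneg
      (div_nonneg (setIntegral_nonneg h.compact.measurableSet fun x _ => sq_nonneg _) h.vol_pos.le)
      _) (by positivity)
  refine Real.rpow_lt_rpow h3 ?_ (by positivity)
  rw [simplex_det]
  push_cast at h2 ⊢
  calc _ ≤ _ := h1
    _ = ((n : ℝ) + 1 + 1) ^ 2 / 8 ^ (n + 1) := by ring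
    _ < _ := h2

end Vale.Agent.P254
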