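import Vale.Agent.P254.Chamber

/-!
# P254: a linear profile belongs to the body
-/

namespace Vale.Agent.P254

open MeasureTheory Finset

variable {n : ℕ}

theorem sum_abs_act (p : Equiv.Perm (Fin n) × (Fin n → Bool)) (x : Fin n → ℝ) :
    ∑ i, |act p x i| = ∑ i, |x i| := by
  simp only [act, abs_mul, abs_sgn, one_mul]
  exact Equiv.sum_comp p.1 fun i => |x i|

/-- The centroid of the chamber. -/
noncomputable def chamberMean (K : Set (Fin n → ℝ)) : Fin n → ℝ :=
  fun i => (∫ x in chamber K, x i) / volume.real (chamber K)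

theorem SymBody.chamber_props {K : Set (Fin (n + 1) → ℝ)} (h : SymBody K) :
    chamberMean K ∈ K ∧ (∀ i, 0 ≤ chamberMean K i) ∧
      ∑ i, chamberMean K i = ((n : ℝ) + 1) * meanAbs K ∧
      ∀ j : Fin (n + 1), (j : ℕ) + 1 < n + 1 → 0 ≤ secDiff (chamberMean K) j := by
  set N : ℝ := (Fintype.card (Equiv.Perm (Fin (n + 1)) × (Fin (n + 1) → Bool)) : ℝ) with hN
  have hN0 : 0 < N := by rw [hN]; exact_mod_cast Fintype.card_pos
  have hCc : IsCompact (chamber K) :=
    h.compact.of_isClosed_subset (chamber_closed h.compact.isClosed) fun x hx => hx.1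
  have hCm := hCc.measurableSet
  have hvol := h.integral_chamber (g := fun _ => (1 : ℝ)) continuous_const fun _ _ => rfl
  rw [setIntegral_const, setIntegral_const, smul_eq_mul, smul_eq_mul, mul_one, mul_one,
    ← hN] at hvol
  have hV := h.vol_pos
  have hC0 : 0 < volume.real (chamber K) := by
    rcases mul_pos_iff.1 (hvol ▸ hV) with h' | h'
    · exact h'.2
    · linarith [h'.1]
  have hne : volume (chamber K) ≠ 0 := fun e => by simp [measureReal_def, e] at hC0
  have hint : ∀ i, IntegrableOn (fun x : Fin (n + 1) → ℝ => x i) (chamber K) volume := fun i =>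
    (continuous_apply i).continuousOn.integrableOn_compact hCc
  refine ⟨?_, fun i => div_nonneg (setIntegral_nonneg hCm fun x hx => hx.2.2 i) hC0.le, ?_, ?_⟩
  · have hid : IntegrableOn (fun x : Fin (n + 1) → ℝ => x) (chamber K) volume :=
      continuous_id.continuousOn.integrableOn_compact hCc
    have := h.convex.set_average_mem h.compact.isClosed hne hCc.measure_lt_top.ne
      (f := fun x => x) ((ae_restrict_mem hCm).mono fun x hx => hx.1) hid
    rw [setAverage_eq] at this
    convert this using 1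
    funext i
    rw [Pi.smul_apply, eval_integral (fun i => hint i), smul_eq_mul, chamberMean]
    ring
  · have hg := h.integral_chamber (g := fun x => ∑ i, |x i|) (by fun_prop) sum_abs_act
    have hia : ∀ i, IntegrableOn (fun x : Fin (n + 1) → ℝ => |x i|) K volume := fun i =>
      ((continuous_apply i).abs).continuousOn.integrableOn_compact h.compact
    rw [integral_finsetSum _ fun i _ => hia i,
      setIntegral_congr_fun hCm (g := fun x => ∑ i, x i)
        fun x hx => Finset.sum_congr rfl fun i _ => abs_of_nonneg (hx.2.2 i),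
      integral_finsetSum _ fun i _ => hint i, ← hN] at hg
    simp only [h.abs_integral, Finset.sum_const, Finset.card_univ, Fintype.card_fin,
      nsmul_eq_mul] at hg
    simp only [chamberMean, ← Finset.sum_div, meanAbs]
    rw [hvol]
    push_cast at hg
    field_simp
    linarith
  · intro j hj
    have hext : ∀ m, ext0 (chamberMean K) m =
        (∫ x in chamber K, ext0 x m) / volume.real (chamber K) := fun m => by
      cases m with
      | zero => simp [ext0]
      | succ k => by_cases hk : k < n + 1 <;> simp [ext0, hk, chamberMean]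
    have hi : ∀ m, IntegrableOn (fun x : Fin (n + 1) → ℝ => ext0 x m) (chamber K) volume :=
      fun m => by
      cases m with
      | zero => simp [ext0]
      | succ k =>
        by_cases hk : k < n + 1
        · simpa [ext0, hk] using hint ⟨k, hk⟩
        · simp [ext0, hk]
    have hnn := h.secDiff_nonneg j hj
    have heq : ∫ x in chamber K, secDiff x j = secDiff (chamberMean K) j *
        volume.real (chamber K) := by
      simp only [secDiff, hext]
      rw [integral_add ((hi _).fun_sub ((hi _).const_mul 2)) (hi _),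
        integral_sub (hi _) ((hi _).const_mul 2), integral_const_mul]
      field_simp
    rw [heq] at hnn
    exact nonneg_of_mul_nonneg_left hnn hC0

theorem ratio_mono {q : Fin n → ℝ}
    (hq : ∀ j : Fin n, (j : ℕ) + 1 < n → 0 ≤ secDiff q j) :
    Monotone fun i : Fin n => q i / ((i : ℝ) + 1) := by
  have key : ∀ k, k + 1 ≤ n → ext0 q k * ((k : ℝ) + 1) ≤ (k : ℝ) * ext0 q (k + 1) := by
    intro k
    induction k with
    | zero => simp [ext0]
    | succ k ih =>
      intro hk
      have h1 := hq ⟨k, by omega⟩ hk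
      have h2 := ih (by omega)
      simp only [secDiff] at h1
      push_cast
      nlinarith
  intro a b hab
  suffices H : ∀ m, ∀ hb : (a : ℕ) + m < n,
      q a / ((a : ℝ) + 1) ≤ q ⟨a + m, hb⟩ / (((a : ℕ) + m : ℕ) + 1 : ℝ) by
    have := H ((b : ℕ) - a) (by have := b.isLt; omega)
    have e : (⟨(a : ℕ) + ((b : ℕ) - a), by have := b.isLt; omega⟩ : Fin n) = b :=
      Fin.ext (show (a : ℕ) + ((b : ℕ) - a) = b by have : (a : ℕ) ≤ b := hab; omega)
    rw [e, show (a : ℕ) + ((b : ℕ) - a) = b by have : (a : ℕ) ≤ b := hab; omega] at this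
    exact this
  intro m
  induction m with
  | zero => intro hb; simp
  | succ m ih =>
    intro hb
    refine (ih (by omega)).trans ?_
    have h1 := key ((a : ℕ) + m + 1) (by omega)
    simp only [ext0, show (a : ℕ) + m + 1 < n by omega, show (a : ℕ) + m < n by omega,
      dif_pos] at h1
    rw [div_le_div_iff₀ (by positivity) (by positivity)]
    push_cast at h1 ⊢
    simp only [← add_assoc] at h1 ⊢
    linarith

theorem cheb {c ρ : Fin n → ℝ} (hc : Monotone c) (hρ : Monotone ρ) :
    (∑ k : Fin n, ((k : ℝ) + 1) * c k) * (∑ k : Fin n, ((k : ℝ) + 1) * ρ k) ≤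
      (∑ k : Fin n, ((k : ℝ) + 1) * (c k * ρ k)) * (∑ k : Fin n, ((k : ℝ) + 1)) := by
  have h : 0 ≤ ∑ k : Fin n, ∑ l : Fin n,
      ((k : ℝ) + 1) * ((l : ℝ) + 1) * ((c k - c l) * (ρ k - ρ l)) := by
    refine sum_nonneg fun k _ => sum_nonneg fun l _ => mul_nonneg (by positivity) ?_
    rcases le_total k l with e | e
    · exact mul_nonneg_of_nonpos_of_nonpos (sub_nonpos.2 (hc e)) (sub_nonpos.2 (hρ e))
    · exact mul_nonneg (sub_nonneg.2 (hc e)) (sub_nonneg.2 (hρ e))
  have e : ∑ k : Fin n, ∑ l : Fin n,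
      ((k : ℝ) + 1) * ((l : ℝ) + 1) * ((c k - c l) * (ρ k - ρ l)) =
      2 * ((∑ k : Fin n, ((k : ℝ) + 1) * (c k * ρ k)) * (∑ k : Fin n, ((k : ℝ) + 1))) -
      2 * ((∑ k : Fin n, ((k : ℝ) + 1) * c k) * (∑ k : Fin n, ((k : ℝ) + 1) * ρ k)) := by
    have e1 : ∀ k l : Fin n, ((k : ℝ) + 1) * ((l : ℝ) + 1) * ((c k - c l) * (ρ k - ρ l)) =
        ((k : ℝ) + 1) * (c k * ρ k) * ((l : ℝ) + 1) + ((k : ℝ) + 1) * (((l : ℝ) + 1) * (c l * ρ l))
        - ((k : ℝ) + 1) * c k * (((l : ℝ) + 1) * ρ l)
        - ((k : ℝ) + 1) * ρ k * (((l : ℝ) + 1) * c l) := fun k l => by ring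
    simp only [e1, sum_sub_distrib, sum_add_distrib, ← mul_sum, ← sum_mul]
    ring
  linarith

theorem sum_succ (n : ℕ) : ∑ k : Fin n, ((k : ℝ) + 1) = (n : ℝ) * ((n : ℝ) + 1) / 2 := by
  induction n with
  | zero => simp
  | succ m ih => rw [Fin.sum_univ_castSucc]; simp [ih]; ring

theorem SymBody.linear_mem {K : Set (Fin (n + 1) → ℝ)} (h : SymBody K) :
    (fun i : Fin (n + 1) => ((i : ℝ) + 1) * (2 * meanAbs K / ((n : ℝ) + 2))) ∈ K := by
  obtain ⟨hqK, hq0, hsum, hd⟩ := h.chamber_props
  set q := chamberMean K with hq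
  set w := fun i : Fin (n + 1) => ((i : ℝ) + 1) * (2 * meanAbs K / ((n : ℝ) + 2)) with hw
  have hb : 0 ≤ meanAbs K :=
    div_nonneg (setIntegral_nonneg h.compact.measurableSet fun x _ => abs_nonneg _) h.vol_pos.le
  by_contra hnot
  obtain ⟨f, u, hfK, hfw⟩ := geometric_hahn_banach_closed_point h.convex h.compact.isClosed hnot
  set c : Fin (n + 1) → ℝ := fun i => f (Pi.single i 1) with hc
  have hf : ∀ v : Fin (n + 1) → ℝ, f v = ∑ i, v i * c i := fun v => by
    conv_lhs => rw [pi_eq_sum_univ' v]
    simp [map_sum, hc]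
  set cp : Fin (n + 1) → ℝ := fun i => max (c i) 0 with hcp
  set σ := Tuple.sort cp with hσ
  have hmono : Monotone (cp ∘ σ) := Tuple.monotone_sort cp
  set z : Fin (n + 1) → ℝ := fun i => if 0 ≤ c i then q (σ.symm i) else 0 with hz
  have hzK : z ∈ K := h.mem_of_abs_le (h.perm σ.symm q hqK) fun i => by
    simp only [hz]; split_ifs <;> simp
  have h1 : f w ≤ ∑ i, w i * cp i := by
    rw [hf]
    exact sum_le_sum fun i _ => mul_le_mul_of_nonneg_left (le_max_left _ _) (by positivity)
  have h2 : ∑ i, w i * cp i ≤ ∑ k, w k * cp (σ k) := by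
    have hw' : Monotone w := fun a b hab => by
      simp only [hw]
      have : (a : ℝ) ≤ (b : ℝ) := by exact_mod_cast (show (a : ℕ) ≤ b from hab)
      exact mul_le_mul_of_nonneg_right (by linarith) (by positivity)
    have := Monovary.sum_mul_comp_perm_le_sum_mul (σ := σ.symm) (hw'.monovary hmono)
    simpa using this
  have h3 : ∑ k, w k * cp (σ k) ≤ ∑ k, q k * cp (σ k) := by
    have hch := cheb hmono (ratio_mono hd)
    rw [sum_succ] at hch
    have e1 : ∑ k : Fin (n + 1), ((k : ℝ) + 1) * (q k / ((k : ℝ) + 1)) =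
        ((n : ℝ) + 1) * meanAbs K := by
      rw [← hsum]
      exact sum_congr rfl fun k _ => by field_simp
    have e2 : ∑ k : Fin (n + 1), ((k : ℝ) + 1) * ((cp ∘ σ) k * (q k / ((k : ℝ) + 1))) =
        ∑ k, q k * cp (σ k) := sum_congr rfl fun k _ => by simp only [Function.comp]; field_simp
    rw [e1, e2] at hch
    have e3 : ∑ k, w k * cp (σ k) =
        (∑ k : Fin (n + 1), ((k : ℝ) + 1) * (cp ∘ σ) k) * (2 * meanAbs K / ((n : ℝ) + 2)) := by
      rw [sum_mul]
      exact sum_congr rfl fun k _ => by simp only [hw, Function.comp]; ring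
    rw [e3, ← mul_div_assoc, div_le_iff₀ (by positivity)]
    push_cast at hch
    nlinarith
  have h4 : ∑ k, q k * cp (σ k) = f z := by
    rw [hf, ← Equiv.sum_comp σ.symm fun k => q k * cp (σ k)]
    refine sum_congr rfl fun i _ => ?_
    simp only [hz, hcp, Equiv.apply_symm_apply]
    by_cases hi : 0 ≤ c i
    · rw [if_pos hi, max_eq_left hi]
    · rw [if_neg hi, max_eq_right (not_le.1 hi).le]; simp
  linarith [hfK z hzK]

end Vale.Agent.P254
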