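import Vale.Agent.P254.Defs

/-!
# P254: symmetric bodies: signed permutations, monotonicity, second moments
-/

namespace Vale.Agent.P254

open MeasureTheory Finset

variable {n : ℕ}

/-- A convex body invariant under sign changes and permutations of the coordinates. -/
structure SymBody (K : Set (Fin n → ℝ)) : Prop where
  convex : Convex ℝ K
  compact : IsCompact K
  interior_ne : (interior K).Nonempty
  flip : ∀ x ∈ K, ∀ i, Function.update x i (-x i) ∈ K
  perm : ∀ (σ : Equiv.Perm (Fin n)), ∀ x ∈ K, (fun i => x (σ i)) ∈ K

theorem SymBody.mem_of_abs_le {K : Set (Fin n → ℝ)} (h : SymBody K) {x y : Fin n → ℝ} (hx : x ∈ K)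
    (hy : ∀ i, |y i| ≤ |x i|) : y ∈ K := by
  suffices H : ∀ s : Finset (Fin n), (fun i => if i ∈ s then y i else x i) ∈ K by
    simpa using H univ
  intro s
  induction s using Finset.induction_on with
  | empty => simpa using hx
  | insert a s ha ih =>
    set z : Fin n → ℝ := fun i => if i ∈ s then y i else x i with hz
    have hza : z a = x a := by simp [hz, ha]
    have h' := h.flip z ih a
    have key : (fun i => if i ∈ insert a s then y i else x i) = Function.update z a (y a) := by
      funext i
      by_cases hi : i = a
      · subst hi; simp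
      · simp [hi, hz]
    rw [key]
    by_cases hxa : x a = 0
    · have : y a = 0 := by simpa [hxa] using hy a
      rw [this, ← hxa, ← hza, Function.update_eq_self]
      exact ih
    set t : ℝ := (1 + y a / x a) / 2
    have hr : |y a / x a| ≤ 1 := by
      rw [abs_div]; exact div_le_one_of_le₀ (hy a) (abs_nonneg _)
    obtain ⟨hr1, hr2⟩ := abs_le.1 hr
    have hmem := h.convex ih h' (a := t) (b := 1 - t) (by simp only [t]; linarith)
      (by simp only [t]; linarith) (by ring)
    convert hmem using 1
    funext i
    by_cases hi : i = a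
    · subst hi
      simp only [Function.update_self, Pi.add_apply, Pi.smul_apply, smul_eq_mul, hza, t]
      field_simp
      ring
    · simp [hi]; ring

/-- The sign `-1` or `1`. -/
def sgn (b : Bool) : ℝ := if b then 1 else -1

theorem sgn_sq (b : Bool) : sgn b * sgn b = 1 := by cases b <;> simp [sgn]

theorem abs_sgn (b : Bool) : |sgn b| = 1 := by cases b <;> simp [sgn]

/-- A signed permutation of the coordinates. -/
def act (p : Equiv.Perm (Fin n) × (Fin n → Bool)) (x : Fin n → ℝ) : Fin n → ℝ :=
  fun i => sgn (p.2 i) * x (p.1 i)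

theorem act_preserving (p : Equiv.Perm (Fin n) × (Fin n → Bool)) :
    MeasurePreserving (act p) volume volume := by
  have h1 : MeasurePreserving (fun x : Fin n → ℝ => fun i => sgn (p.2 i) * x i) volume volume := by
    refine volume_preserving_pi (f := fun i (t : ℝ) => sgn (p.2 i) * t) fun i => ?_
    cases hp : p.2 i
    · simpa [sgn, hp] using Measure.measurePreserving_neg (volume : Measure ℝ)
    · simp only [sgn, if_true, one_mul]
      exact MeasurePreserving.id (volume : Measure ℝ)
  have h2 := volume_measurePreserving_piCongrLeft (fun _ : Fin n => ℝ) p.1.symm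
  convert h1.comp h2 using 1
  funext x i
  simp [act, MeasurableEquiv.piCongrLeft, Equiv.piCongrLeft]

theorem act_embedding (p : Equiv.Perm (Fin n) × (Fin n → Bool)) : MeasurableEmbedding (act p) := by
  refine (Measurable.measurableEmbedding (act_preserving p).measurable ?_)
  intro x y hxy
  funext i
  have := congrFun hxy (p.1.symm i)
  simp only [act, Equiv.apply_symm_apply] at this
  have hs : sgn (p.2 (p.1.symm i)) ≠ 0 := by
    cases p.2 (p.1.symm i) <;> simp [sgn]
  exact mul_left_cancel₀ hs this

theorem SymBody.act_mem {K : Set (Fin n → ℝ)} (h : SymBody K)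
    (p : Equiv.Perm (Fin n) × (Fin n → Bool)) {x : Fin n → ℝ} (hx : x ∈ K) : act p x ∈ K :=
  h.mem_of_abs_le (h.perm p.1 x hx) fun i => by simp [act, abs_mul, abs_sgn]

theorem SymBody.act_preimage {K : Set (Fin n → ℝ)} (h : SymBody K)
    (p : Equiv.Perm (Fin n) × (Fin n → Bool)) : act p ⁻¹' K = K := by
  ext x
  refine ⟨fun hx => ?_, h.act_mem p⟩
  have := h.act_mem (p.1.symm, fun i => p.2 (p.1.symm i)) (show act p x ∈ K from hx)
  convert this using 1
  funext i
  simp [act, ← mul_assoc, sgn_sq]

theorem SymBody.integral_act {K : Set (Fin n → ℝ)} (h : SymBody K)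
    (p : Equiv.Perm (Fin n) × (Fin n → Bool)) (g : (Fin n → ℝ) → ℝ) :
    ∫ x in K, g (act p x) = ∫ x in K, g x := by
  have := (act_preserving p).setIntegral_preimage_emb (act_embedding p) g K
  rwa [h.act_preimage p] at this

theorem SymBody.vol_pos {K : Set (Fin n → ℝ)} (h : SymBody K) : 0 < volume.real K := by
  refine ENNReal.toReal_pos ?_ h.compact.measure_lt_top.ne
  exact ((isOpen_interior.measure_pos volume h.interior_ne).trans_le
    (measure_mono interior_subset)).ne'

/-- The mean absolute coordinate. -/
noncomputable def meanAbs (K : Set (Fin (n + 1) → ℝ)) : ℝ :=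
  (∫ x in K, |x 0|) / volume.real K

/-- The mean square coordinate. -/
noncomputable def meanSqCoord (K : Set (Fin (n + 1) → ℝ)) : ℝ :=
  (∫ x in K, x 0 ^ 2) / volume.real K

theorem SymBody.abs_integral {K : Set (Fin (n + 1) → ℝ)} (h : SymBody K) (i : Fin (n + 1)) :
    ∫ x in K, |x i| = ∫ x in K, |x 0| := by
  rw [← h.integral_act (Equiv.swap 0 i, fun _ => true) fun x => |x 0|]
  simp [act, sgn]

theorem SymBody.centroid_eq {K : Set (Fin n → ℝ)} (h : SymBody K) : centroid K = 0 := by
  funext i
  have := h.integral_act (1, fun _ => false) fun x => x i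
  simp only [act, sgn, Bool.false_eq_true, if_false, Equiv.Perm.one_apply, neg_mul, one_mul,
    integral_neg] at this
  simp [centroid, show ∫ x in K, x i = 0 by linarith]

theorem SymBody.covMat_eq {K : Set (Fin (n + 1) → ℝ)} (h : SymBody K) :
    covMat K = Matrix.diagonal fun _ => meanSqCoord K := by
  ext i j
  simp only [covMat, h.centroid_eq, Pi.zero_apply, sub_zero]
  by_cases hij : i = j
  · subst hij
    rw [Matrix.diagonal_apply_eq, meanSqCoord]
    congr 1
    rw [← h.integral_act (Equiv.swap 0 i, fun _ => true) fun x => x 0 ^ 2]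
    simp [act, sgn, pow_two]
  · rw [Matrix.diagonal_apply_ne _ hij]
    have := h.integral_act (1, fun l => decide (l ≠ i)) fun x => x i * x j
    simp only [act, sgn, ne_eq, Equiv.Perm.one_apply, decide_eq_true_eq, not_true, if_false,
      if_pos (Ne.symm hij), one_mul, neg_mul, integral_neg] at this
    rw [show ∫ x in K, x i * x j = 0 by linarith, zero_div]

theorem SymBody.det_covMat {K : Set (Fin (n + 1) → ℝ)} (h : SymBody K) :
    (covMat K).det = meanSqCoord K ^ (n + 1) := by
  rw [h.covMat_eq, Matrix.det_diagonal]
  simp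

end Vale.Agent.P254
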